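import Vale.Agent.P322.RR
import Vale.Agent.P322.L1

/-! # P322-W: definitions for the proof of the real inequality (C) with
`G(m) = (1-m²)(1-m²/4)` -/

namespace P322

/-- the weight `G` -/
noncomputable def GW (m : ℝ) : ℝ := (1 - m ^ 2) * (1 - 1 / 4 * m ^ 2)

/-- its average over the two children -/
noncomputable def GWb (m d : ℝ) : ℝ := (GW (m + d) + GW (m - d)) / 2

/-- `Λ(a) = -log(1-a²)` -/
noncomputable def Lm (a : ℝ) : ℝ := -Real.log (1 - a ^ 2)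

/-- `q(γ) = γ R(h(a)/γ)` -/
noncomputable def qq (a γ : ℝ) : ℝ := γ * RR (hh a / γ)

/-- `E(a) = R + h rr` (the derivative of `q` at `1`) -/
noncomputable def EE (s : ℝ) : ℝ := Rs s + hh s * rr s

/-- `b = 1 - a² + a² μ` -/
noncomputable def bW (a μ : ℝ) : ℝ := 1 - a ^ 2 + a ^ 2 * μ

/-- the concave function `Φ(μ)`; `2Δ = (1-μ)(2 a artanh a - Λ) - Φ(μ)` on the curve -/
noncomputable def PH (a μ : ℝ) : ℝ :=
  μ * Lm a + Real.log (1 + a ^ 2 * μ)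
    - 2 * Real.sqrt (μ * bW a μ) * ath (a ^ 2 * Real.sqrt (μ / bW a μ))

/-- `G1 = G(m)/λ` on the curve -/
noncomputable def G1 (a μ : ℝ) : ℝ := (1 + a ^ 2 * μ) * (1 - 1 / 4 * (μ * bW a μ))

/-- `G2 = Gbar/λ` on the curve -/
noncomputable def G2 (a μ : ℝ) : ℝ :=
  G1 a μ - (1 - μ) * a ^ 2 * (5 / 4 - 1 / 4 * (6 * (μ * bW a μ) + (1 - μ) ^ 2 * a ^ 2))

open Classical in
/-- `X = -R'`: equals `rr s` at `x = hh s` and `0` for `x ≥ log 2` -/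
noncomputable def XX (x : ℝ) : ℝ :=
  if h : ∃ s, 0 < s ∧ s < 1 ∧ hh s = x then rr h.choose else 0

theorem XX_hh {s : ℝ} (hs : s ∈ Set.Ioo (0 : ℝ) 1) : XX (hh s) = rr s := by
  have hex : ∃ t, 0 < t ∧ t < 1 ∧ hh t = hh s := ⟨s, hs.1, hs.2, rfl⟩
  have hsp := hex.choose_spec
  have heq : hex.choose = s :=
    hh_strictAntiOn.injOn ⟨hsp.1.le, hsp.2.1.le⟩ ⟨hs.1.le, hs.2.le⟩ hsp.2.2
  unfold XX
  rw [dif_pos hex, heq]

theorem XX_zero {x : ℝ} (hx : Real.log 2 ≤ x) : XX x = 0 := by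
  unfold XX
  rw [dif_neg]
  rintro ⟨s, h0, _, h⟩
  have := hh_lt (u := s) h0.ne'
  linarith

theorem XX_nonneg (x : ℝ) : 0 ≤ XX x := by
  unfold XX
  split_ifs with h
  · exact rr_nonneg ⟨h.choose_spec.1, h.choose_spec.2.1⟩
  · exact le_rfl

theorem Rs_eq {a : ℝ} (ha : a ∈ Set.Ioo (0 : ℝ) 1) : Rs a = Lm a - a * ath a := by
  have h := hh_eq (s := a) ⟨by linarith [ha.1], ha.2⟩
  unfold Rs Lm
  unfold ell at h
  linarith

end P322
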