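import Vale.Agent.P322.W.Base

/-! # P322-CURVE: parametrisation of `(m,d)` by `(a,λ)`, `λ = 1-μ` -/

namespace P322

theorem curve_hhf {u : ℝ} (hp : 0 < 1 + u) (hm : 0 < 1 - u) :
    hh u = Real.log 2 - (1 + u) / 2 * Real.log (1 + u) - (1 - u) / 2 * Real.log (1 - u) := by
  unfold hh Real.binEntropy
  have e : 1 - (1 + u) / 2 = (1 - u) / 2 := by ring
  rw [e, Real.log_inv, Real.log_inv, Real.log_div hp.ne' two_ne_zero,
    Real.log_div hm.ne' two_ne_zero]
  ring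

theorem curve_athf {u : ℝ} (hp : 0 < 1 + u) (hm : 0 < 1 - u) :
    ath u = (Real.log (1 + u) - Real.log (1 - u)) / 2 := by
  unfold ath
  rw [Real.log_div hp.ne' hm.ne']

theorem curve_tanh_add (x y : ℝ) : Real.tanh (x + y)
    = (Real.tanh x + Real.tanh y) / (1 + Real.tanh x * Real.tanh y) := by
  have h1 : Real.cosh x ≠ 0 := (Real.cosh_pos x).ne'
  have h2 : Real.cosh y ≠ 0 := (Real.cosh_pos y).ne'
  have h3 : Real.cosh x * Real.cosh y + Real.sinh x * Real.sinh y ≠ 0 := by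
    rw [← Real.cosh_add]; exact (Real.cosh_pos _).ne'
  rw [Real.tanh_eq_sinh_div_cosh, Real.tanh_eq_sinh_div_cosh, Real.tanh_eq_sinh_div_cosh,
    Real.sinh_add, Real.cosh_add]
  have h4 : 1 + Real.sinh x / Real.cosh x * (Real.sinh y / Real.cosh y)
      = (Real.cosh x * Real.cosh y + Real.sinh x * Real.sinh y) / (Real.cosh x * Real.cosh y) := by
    field_simp
  have h5 : Real.sinh x / Real.cosh x + Real.sinh y / Real.cosh y
      = (Real.sinh x * Real.cosh y + Real.cosh x * Real.sinh y) / (Real.cosh x * Real.cosh y) := by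
    field_simp
  rw [h4, h5, div_div_div_cancel_right₀ (mul_ne_zero h1 h2)]

/-- `m ± d` from `a, t` -/
theorem curve_exists {m d : ℝ} (hd : 0 < d) (hm0 : 0 ≤ m) (hm : m + d < 1) :
    ∃ a t : ℝ, 0 < a ∧ a < 1 ∧ 0 ≤ t ∧ t < 1 ∧ m + d = (t + a) / (1 + t * a) ∧
      m - d = (t - a) / (1 - t * a) := by
  have hp : m + d ∈ Set.Ioo (-1 : ℝ) 1 := ⟨by linarith, hm⟩
  have hq : m - d ∈ Set.Ioo (-1 : ℝ) 1 := ⟨by linarith, by linarith⟩
  set P := ath (m + d) with hP
  set Q := ath (m - d) with hQ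
  set t := Real.tanh ((P + Q) / 2) with ht
  set a := Real.tanh ((P - Q) / 2) with ha
  have ht1 : t ∈ Set.Ioo (-1 : ℝ) 1 := L1_tanh_mem _
  have ha1 : a ∈ Set.Ioo (-1 : ℝ) 1 := L1_tanh_mem _
  have e1 : m + d = (t + a) / (1 + t * a) := by
    have h := curve_tanh_add ((P + Q) / 2) ((P - Q) / 2)
    rw [show (P + Q) / 2 + (P - Q) / 2 = P by ring, hP, L1_tanh_ath hp] at h
    exact h
  have e2 : m - d = (t - a) / (1 - t * a) := by
    have h := curve_tanh_add ((P + Q) / 2) (-((P - Q) / 2))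
    rw [Real.tanh_neg, show (P + Q) / 2 + -((P - Q) / 2) = Q by ring, hQ, L1_tanh_ath hq] at h
    rw [h, ← ht, ← ha, mul_neg, ← sub_eq_add_neg, ← sub_eq_add_neg]
  have hta : |t * a| < 1 := by
    rw [abs_mul]
    have h1 : |t| < 1 := abs_lt.2 ht1
    have h2 : |a| < 1 := abs_lt.2 ha1
    nlinarith [abs_nonneg t, abs_nonneg a]
  have hta' := abs_lt.1 hta
  have h1 : 0 < 1 + t * a := by linarith [hta'.1]
  have h2 : 0 < 1 - t * a := by linarith [hta'.2]
  have ht2 : 0 < 1 - t ^ 2 := by nlinarith [ht1.1, ht1.2]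
  have ha2 : 0 < 1 - a ^ 2 := by nlinarith [ha1.1, ha1.2]
  have e3 : d * ((1 + t * a) * (1 - t * a)) = a * (1 - t ^ 2) := by
    have : 2 * d = (t + a) / (1 + t * a) - (t - a) / (1 - t * a) := by rw [← e1, ← e2]; ring
    field_simp at this
    linarith
  have e4 : m * ((1 + t * a) * (1 - t * a)) = t * (1 - a ^ 2) := by
    have : 2 * m = (t + a) / (1 + t * a) + (t - a) / (1 - t * a) := by rw [← e1, ← e2]; ring
    field_simp at this
    linarith
  have ha0 : 0 < a := by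
    have h3 : 0 < a * (1 - t ^ 2) := by rw [← e3]; positivity
    exact (pos_iff_pos_of_mul_pos h3).2 ht2
  have ht0 : 0 ≤ t := by
    have h3 : 0 ≤ t * (1 - a ^ 2) := by rw [← e4]; positivity
    exact nonneg_of_mul_nonneg_left h3 ha2
  exact ⟨a, t, ha0, ha1.2, ht0, ht1.2, e1, e2⟩

/-- `a = tanh((artanh(m+d) - artanh(m-d))/2)`, `μ = 1 - d/a` -/
theorem curve_param {m d : ℝ} (hd : 0 < d) (hm0 : 0 ≤ m) (hm : m + d < 1) :
    ∃ a ∈ Set.Ioo (0 : ℝ) 1, ∃ μ ∈ Set.Ico (0 : ℝ) 1, d = (1 - μ) * a ∧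
      m = Real.sqrt (μ * bW a μ) ∧ jj (m + d) (m - d) = d * ath a ∧
      2 * (hh m - (hh (m + d) + hh (m - d)) / 2)
        = (1 - μ) * (2 * a * ath a - Lm a) - PH a μ := by
  obtain ⟨a, t, ha0, ha1, ht0, ht1, e1, e2⟩ := curve_exists hd hm0 hm
  have hta : t * a < 1 := by nlinarith
  have hta0 : 0 ≤ t * a := by positivity
  have h1 : 0 < 1 + t * a := by linarith
  have h2 : 0 < 1 - t * a := by linarith
  have ht2 : 0 < 1 - t ^ 2 := by nlinarith
  have ha2 : 0 < 1 - a ^ 2 := by nlinarith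
  have hat : a ^ 2 * t < 1 := by nlinarith
  have hat0 : 0 ≤ a ^ 2 * t := by positivity
  have hD : 0 < 1 - a ^ 2 * t ^ 2 := by nlinarith
  have e3 : d = a * (1 - t ^ 2) / (1 - a ^ 2 * t ^ 2) := by
    have : 2 * d = (t + a) / (1 + t * a) - (t - a) / (1 - t * a) := by rw [← e1, ← e2]; ring
    rw [eq_div_iff hD.ne']
    field_simp at this
    linarith
  have e4 : m = t * (1 - a ^ 2) / (1 - a ^ 2 * t ^ 2) := by
    have : 2 * m = (t + a) / (1 + t * a) + (t - a) / (1 - t * a) := by rw [← e1, ← e2]; ring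
    rw [eq_div_iff hD.ne']
    field_simp at this
    linarith
  set μ : ℝ := t ^ 2 * (1 - a ^ 2) / (1 - a ^ 2 * t ^ 2) with hμ
  have hμ0 : 0 ≤ μ := by rw [hμ]; positivity
  have hl : 1 - μ = (1 - t ^ 2) / (1 - a ^ 2 * t ^ 2) := by
    rw [hμ, eq_div_iff hD.ne', sub_mul, div_mul_cancel₀ _ hD.ne']; ring
  have hl0 : 0 < 1 - μ := by rw [hl]; positivity
  have hb : bW a μ = (1 - a ^ 2) / (1 - a ^ 2 * t ^ 2) := by
    unfold bW
    rw [hμ]; field_simp; ring
  have hs1 : μ * bW a μ = m ^ 2 := by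
    rw [hb, hμ, e4]; field_simp
  have hs2 : μ / bW a μ = t ^ 2 := by
    rw [hb, hμ, div_div_div_cancel_right₀ hD.ne', mul_div_assoc, div_self ha2.ne', mul_one]
  have hq1 : Real.sqrt (μ * bW a μ) = m := by rw [hs1, Real.sqrt_sq hm0]
  have hq2 : Real.sqrt (μ / bW a μ) = t := by rw [hs2, Real.sqrt_sq ht0]
  have A1 : 0 < 1 + t := by linarith
  have A2 : 0 < 1 - t := by linarith
  have A3 : 0 < 1 + a := by linarith
  have A4 : 0 < 1 - a := by linarith
  have A5 : 0 < 1 + a ^ 2 * t := by linarith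
  have A6 : 0 < 1 - a ^ 2 * t := by linarith
  -- logarithms
  have B1 : 1 + (m + d) = (1 + t) * (1 + a) / (1 + t * a) := by rw [e1]; field_simp; ring
  have B2 : 1 - (m + d) = (1 - t) * (1 - a) / (1 + t * a) := by rw [e1]; field_simp; ring
  have B3 : 1 + (m - d) = (1 + t) * (1 - a) / (1 - t * a) := by rw [e2]; field_simp; ring
  have B4 : 1 - (m - d) = (1 - t) * (1 + a) / (1 - t * a) := by rw [e2]; field_simp; ring
  have hDf : 1 - a ^ 2 * t ^ 2 = (1 + t * a) * (1 - t * a) := by ring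
  have B5 : 1 + m = (1 + t) * (1 - a ^ 2 * t) / ((1 + t * a) * (1 - t * a)) := by
    rw [e4, hDf]; field_simp; ring
  have B6 : 1 - m = (1 - t) * (1 + a ^ 2 * t) / ((1 + t * a) * (1 - t * a)) := by
    rw [e4, hDf]; field_simp; ring
  have C1 : Real.log (1 + (m + d)) = Real.log (1 + t) + Real.log (1 + a) - Real.log (1 + t * a) := by
    rw [B1, Real.log_div (mul_pos A1 A3).ne' h1.ne', Real.log_mul A1.ne' A3.ne']
  have C2 : Real.log (1 - (m + d)) = Real.log (1 - t) + Real.log (1 - a) - Real.log (1 + t * a) := by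
    rw [B2, Real.log_div (mul_pos A2 A4).ne' h1.ne', Real.log_mul A2.ne' A4.ne']
  have C3 : Real.log (1 + (m - d)) = Real.log (1 + t) + Real.log (1 - a) - Real.log (1 - t * a) := by
    rw [B3, Real.log_div (mul_pos A1 A4).ne' h2.ne', Real.log_mul A1.ne' A4.ne']
  have C4 : Real.log (1 - (m - d)) = Real.log (1 - t) + Real.log (1 + a) - Real.log (1 - t * a) := by
    rw [B4, Real.log_div (mul_pos A2 A3).ne' h2.ne', Real.log_mul A2.ne' A3.ne']
  have C5 : Real.log (1 + m) = Real.log (1 + t) + Real.log (1 - a ^ 2 * t)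
      - (Real.log (1 + t * a) + Real.log (1 - t * a)) := by
    rw [B5, Real.log_div (mul_pos A1 A6).ne' (mul_pos h1 h2).ne', Real.log_mul A1.ne' A6.ne',
      Real.log_mul h1.ne' h2.ne']
  have C6 : Real.log (1 - m) = Real.log (1 - t) + Real.log (1 + a ^ 2 * t)
      - (Real.log (1 + t * a) + Real.log (1 - t * a)) := by
    rw [B6, Real.log_div (mul_pos A2 A5).ne' (mul_pos h1 h2).ne', Real.log_mul A2.ne' A5.ne',
      Real.log_mul h1.ne' h2.ne']
  have P1 : 0 < 1 + (m + d) := by linarith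
  have P2 : 0 < 1 - (m + d) := by linarith
  have P3 : 0 < 1 + (m - d) := by linarith
  have P4 : 0 < 1 - (m - d) := by linarith
  have P5 : 0 < 1 + m := by linarith
  have P6 : 0 < 1 - m := by linarith
  have D1 : Lm a = -(Real.log (1 + a) + Real.log (1 - a)) := by
    unfold Lm
    rw [show 1 - a ^ 2 = (1 + a) * (1 - a) by ring, Real.log_mul A3.ne' A4.ne']
  have D2 : Real.log (1 + a ^ 2 * μ) = Real.log (1 + a ^ 2 * t) + Real.log (1 - a ^ 2 * t)
      - (Real.log (1 + t * a) + Real.log (1 - t * a)) := by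
    have : 1 + a ^ 2 * μ = (1 + a ^ 2 * t) * (1 - a ^ 2 * t) / ((1 + t * a) * (1 - t * a)) := by
      rw [hμ, hDf, eq_div_iff (mul_pos h1 h2).ne', add_mul, one_mul, mul_assoc (a ^ 2),
        div_mul_cancel₀ _ (mul_pos h1 h2).ne']
      ring
    rw [this, Real.log_div (mul_pos A5 A6).ne' (mul_pos h1 h2).ne', Real.log_mul A5.ne' A6.ne',
      Real.log_mul h1.ne' h2.ne']
  have hjj : jj (m + d) (m - d) = d * ath a := by
    unfold jj
    rw [curve_athf P1 P2, curve_athf P3 P4, curve_athf A3 A4, C1, C2, C3, C4]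
    ring
  have hda : d = (1 - μ) * a := by rw [hl, e3]; ring
  refine ⟨a, ⟨ha0, ha1⟩, μ, ⟨hμ0, by linarith⟩, hda, hq1.symm, hjj, ?_⟩
  have hPH : PH a μ = μ * Lm a + Real.log (1 + a ^ 2 * μ) - 2 * m * ath (a ^ 2 * t) := by
    unfold PH
    rw [hq1, hq2]
  have h3 : (1 - μ) * (2 * a * ath a - Lm a) = 2 * d * ath a - (1 - μ) * Lm a := by
    rw [hda]; ring
  rw [hPH, h3, curve_hhf P5 P6, curve_hhf P1 P2, curve_hhf P3 P4, curve_athf A3 A4,
    curve_athf A5 A6, D2, D1, C1, C2, C3, C4, C5, C6]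
  ring

theorem GW_curve {a μ : ℝ} (ha : a ∈ Set.Ioo (0 : ℝ) 1) (hμ : μ ∈ Set.Ico (0 : ℝ) 1) :
    GW (Real.sqrt (μ * bW a μ)) = (1 - μ) * G1 a μ ∧
    GWb (Real.sqrt (μ * bW a μ)) ((1 - μ) * a) = (1 - μ) * G2 a μ := by
  have ha2 : a ^ 2 < 1 := by nlinarith [ha.1, ha.2]
  have hb : 0 < bW a μ := by
    unfold bW
    have := mul_nonneg (sq_nonneg a) hμ.1
    linarith
  have hs := Real.sq_sqrt (mul_nonneg hμ.1 hb.le)
  set s := Real.sqrt (μ * bW a μ) with hsdef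
  have hs4 : s ^ 4 = (μ * bW a μ) ^ 2 := by rw [← hs]; ring
  constructor
  · unfold GW G1
    rw [hs]
    unfold bW
    ring
  · have e : GWb s ((1 - μ) * a) = 1 - 5 / 4 * (s ^ 2 + ((1 - μ) * a) ^ 2)
        + 1 / 4 * (s ^ 4 + 6 * s ^ 2 * ((1 - μ) * a) ^ 2 + ((1 - μ) * a) ^ 4) := by
      unfold GWb GW; ring
    rw [e, hs4, hs]
    unfold G2 G1 bW
    ring

end P322
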