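import Vale.Agent.P322.W.Base

/-! # P322-W4 -/

namespace P322

theorem W4 {s : ℝ} (hs : s ∈ Set.Ioo (0 : ℝ) 1) : hh s * rr s ≤ 4 / 7 * s ^ 2 := by
  sorry

end P322
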