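import Vale.Agent.P322.W.Base

/-! # P322-W-DER: `R' = -X`, `X` is nonincreasing -/

namespace P322

theorem XX_antitone {x y : ℝ} (hx : 0 < x) (hxy : x ≤ y) : XX y ≤ XX x := by
  by_cases hy : y < Real.log 2
  · obtain ⟨s, hs, hsx⟩ := exists_hh hx (hxy.trans_lt hy)
    obtain ⟨t, ht, hty⟩ := exists_hh (hx.trans_le hxy) hy
    have hts : t ≤ s := by
      by_contra hlt
      push Not at hlt
      have := hh_strictAntiOn ⟨hs.1.le, hs.2.le⟩ ⟨ht.1.le, ht.2.le⟩ hlt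
      rw [hsx, hty] at this
      linarith
    rw [← hsx, ← hty, XX_hh hs, XX_hh ht]
    exact rr_monotoneOn ht hs hts
  · push Not at hy
    rw [XX_zero hy]
    exact XX_nonneg x

theorem der_line {x y : ℝ} (hx : 0 < x) (hy : 0 < y) : RR x - XX x * (y - x) ≤ RR y := by
  by_cases h : x < Real.log 2
  · obtain ⟨s, hs, hsx⟩ := exists_hh hx h
    rw [← hsx, RR_hh hs, XX_hh hs]
    exact RR_line hs hy
  · push Not at h
    rw [RR_zero h, XX_zero h]
    have := RR_nonneg y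
    linarith

theorem der_rr_tendsto : Filter.Tendsto rr (nhdsWithin 0 (Set.Ioi 0)) (nhds 0) := by
  have h1 : Filter.Tendsto (fun s : ℝ => s ^ 2 / (1 - s ^ 2)) (nhdsWithin 0 (Set.Ioi 0)) (nhds 0) := by
    have hc : ContinuousAt (fun s : ℝ => s ^ 2 / (1 - s ^ 2)) 0 := by
      refine ContinuousAt.div (by fun_prop) (by fun_prop) (by norm_num)
    have := hc.tendsto.mono_left (nhdsWithin_le_nhds (s := Set.Ioi 0))
    simpa using this
  refine tendsto_of_tendsto_of_tendsto_of_le_of_le' tendsto_const_nhds h1 ?_ ?_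
  · filter_upwards [Ioo_mem_nhdsGT (zero_lt_one' ℝ)] with s hs
    exact rr_nonneg hs
  · filter_upwards [Ioo_mem_nhdsGT (zero_lt_one' ℝ)] with s hs
    have h1 : 0 < 1 - s ^ 2 := by nlinarith [hs.1, hs.2]
    have h2 : 0 < ath s := ath_pos hs.1 hs.2
    have h3 := le_ath hs.1.le hs.2
    unfold rr
    rw [sub_le_iff_le_add]
    have e : s ^ 2 / (1 - s ^ 2) + 1 = 1 / (1 - s ^ 2) := by
      field_simp
      ring
    rw [e, div_le_div_iff₀ (mul_pos h1 h2) h1]
    nlinarith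

theorem der_up {x a : ℝ} (hx : 0 < x) (ha : XX x < a) : ∃ z, 0 < z ∧ z < x ∧ XX z < a := by
  by_cases h : x < Real.log 2
  · obtain ⟨s, hs, hsx⟩ := exists_hh hx h
    rw [← hsx, XX_hh hs] at ha
    have hc := (rline_hasDerivAt_rr hs).continuousAt
    have hev : ∀ᶠ t in nhdsWithin s (Set.Ioi s), rr t < a :=
      (hc.tendsto.mono_left nhdsWithin_le_nhds).eventually_lt_const ha
    obtain ⟨t, ht, htI⟩ := (hev.and (Ioo_mem_nhdsGT hs.2)).exists
    have ht1 : t ∈ Set.Ioo (0 : ℝ) 1 := ⟨hs.1.trans htI.1, htI.2⟩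
    refine ⟨hh t, hh_pos ⟨by linarith [ht1.1], ht1.2⟩, ?_, ?_⟩
    · rw [← hsx]
      exact hh_strictAntiOn ⟨hs.1.le, hs.2.le⟩ ⟨ht1.1.le, ht1.2.le⟩ htI.1
    · rw [XX_hh ht1]
      exact ht
  · push Not at h
    rw [XX_zero h] at ha
    have hev : ∀ᶠ t in nhdsWithin (0 : ℝ) (Set.Ioi 0), rr t < a :=
      der_rr_tendsto.eventually_lt_const ha
    obtain ⟨t, ht, htI⟩ := (hev.and (Ioo_mem_nhdsGT (zero_lt_one' ℝ))).exists
    refine ⟨hh t, hh_pos ⟨by linarith [htI.1], htI.2⟩, ?_, ?_⟩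
    · exact (hh_lt htI.1.ne').trans_le h
    · rw [XX_hh htI]
      exact ht

theorem der_down {x a : ℝ} (hx : 0 < x) (ha : a < XX x) : ∃ z, x < z ∧ a < XX z := by
  by_cases h : x < Real.log 2
  · obtain ⟨s, hs, hsx⟩ := exists_hh hx h
    rw [← hsx, XX_hh hs] at ha
    have hc := (rline_hasDerivAt_rr hs).continuousAt
    have hev : ∀ᶠ t in nhdsWithin s (Set.Iio s), a < rr t :=
      (hc.tendsto.mono_left nhdsWithin_le_nhds).eventually_const_lt ha
    obtain ⟨t, ht, htI⟩ := (hev.and (Ioo_mem_nhdsLT hs.1)).exists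
    have ht1 : t ∈ Set.Ioo (0 : ℝ) 1 := ⟨htI.1, htI.2.trans hs.2⟩
    refine ⟨hh t, ?_, ?_⟩
    · rw [← hsx]
      exact hh_strictAntiOn ⟨ht1.1.le, ht1.2.le⟩ ⟨hs.1.le, hs.2.le⟩ htI.2
    · rw [XX_hh ht1]
      exact ht
  · push Not at h
    rw [XX_zero h] at ha
    exact ⟨x + 1, by linarith, ha.trans_le (XX_nonneg _)⟩

theorem XX_continuousAt {x : ℝ} (hx : 0 < x) : ContinuousAt XX x := by
  refine tendsto_order.2 ⟨fun a ha => ?_, fun a ha => ?_⟩
  · obtain ⟨z, hz, haz⟩ := der_down hx ha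
    filter_upwards [Ioo_mem_nhds hx hz] with y hy
    exact haz.trans_le (XX_antitone hy.1 hy.2.le)
  · obtain ⟨z, hz0, hz, haz⟩ := der_up hx ha
    filter_upwards [Ioi_mem_nhds hz] with y hy
    exact (XX_antitone hz0 (le_of_lt hy)).trans_lt haz

theorem RR_hasDerivAt {x : ℝ} (hx : 0 < x) : HasDerivAt RR (-(XX x)) x := by
  rw [hasDerivAt_iff_isLittleO, Asymptotics.isLittleO_iff]
  intro c hc
  have hcont := Metric.tendsto_nhds.1 (XX_continuousAt hx).tendsto c hc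
  filter_upwards [hcont, Ioi_mem_nhds hx] with y hy hy0
  have hy0' : 0 < y := hy0
  rw [Real.dist_eq] at hy
  have h1 := der_line hx hy0'
  have h2 := der_line hy0' hx
  have h3 : |XX y - XX x| * |y - x| ≤ c * |y - x| :=
    mul_le_mul_of_nonneg_right hy.le (abs_nonneg _)
  rw [← abs_mul] at h3
  have h4 := neg_abs_le ((XX y - XX x) * (y - x))
  rw [Real.norm_eq_abs, Real.norm_eq_abs, smul_eq_mul, abs_le]
  constructor <;> nlinarith

end P322
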