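import Vale.Agent.P322.W.Om
import Vale.Agent.P322.W.Chi
import Vale.Agent.P322.W.Der

/-! # P322-Q: bounds for `q(γ) = γ R(h(a)/γ)` -/

namespace P322

/-- `q(1) = R(h(a))` -/
theorem qq_one {a : ℝ} (ha : a ∈ Set.Ioo (0 : ℝ) 1) : qq a 1 = Rs a := by
  unfold qq
  rw [div_one, one_mul, RR_hh ha]

theorem qq_nonneg {a γ : ℝ} (hγ : 0 ≤ γ) : 0 ≤ qq a γ := mul_nonneg hγ (RR_nonneg _)

theorem q_RR_anti {x y : ℝ} (hx : 0 < x) (hxy : x ≤ y) : RR y ≤ RR x := by
  have h1 := der_line (hx.trans_le hxy) hx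
  have h2 := mul_nonneg (XX_nonneg y) (sub_nonneg.2 hxy)
  nlinarith

theorem q_hh_pos {a : ℝ} (ha : a ∈ Set.Ioo (0 : ℝ) 1) : 0 < hh a :=
  hh_pos ⟨by linarith [ha.1], ha.2⟩

theorem qq_le_of_le_one {a γ : ℝ} (ha : a ∈ Set.Ioo (0 : ℝ) 1) (h0 : 0 < γ) (h1 : γ ≤ 1) :
    qq a γ ≤ Rs a := by
  have hp := q_hh_pos ha
  have h2 : hh a ≤ hh a / γ := by
    rw [le_div_iff₀ h0]
    nlinarith
  have h3 := q_RR_anti hp h2
  rw [RR_hh ha] at h3
  have h4 := RR_nonneg (hh a / γ)
  unfold qq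
  nlinarith

theorem qq_ge_of_one_le {a γ : ℝ} (ha : a ∈ Set.Ioo (0 : ℝ) 1) (h1 : 1 ≤ γ) :
    γ * Rs a ≤ qq a γ := by
  have hp := q_hh_pos ha
  have h0 : 0 < γ := by linarith
  have h2 : hh a / γ ≤ hh a := by
    rw [div_le_iff₀ h0]
    nlinarith
  have h3 := q_RR_anti (div_pos hp h0) h2
  rw [RR_hh ha] at h3
  exact mul_le_mul_of_nonneg_left h3 h0.le

theorem q_hasDerivAt_div {h γ : ℝ} (h0 : 0 < γ) :
    HasDerivAt (fun γ : ℝ => h / γ) (-(h / γ) / γ) γ := by
  have h1 := (hasDerivAt_inv h0.ne').const_mul h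
  have e : h * -(γ ^ 2)⁻¹ = -(h / γ) / γ := by
    field_simp
  rw [e] at h1
  exact h1

theorem q_hasDerivAt_RR {h γ : ℝ} (hh0 : 0 < h) (h0 : 0 < γ) :
    HasDerivAt (fun γ : ℝ => RR (h / γ)) ((h / γ) * XX (h / γ) / γ) γ := by
  have h1 := (RR_hasDerivAt (div_pos hh0 h0)).comp γ (q_hasDerivAt_div (h := h) h0)
  have e : -XX (h / γ) * (-(h / γ) / γ) = (h / γ) * XX (h / γ) / γ := by ring
  rw [e] at h1
  exact h1

theorem qq_upper {a γ : ℝ} (ha : a ∈ Set.Ioo (0 : ℝ) 1) (h1 : 1 ≤ γ) :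
    qq a γ ≤ Rs a + EE a * (γ - 1) + 1 / 3 * (γ - 1) ^ 2 := by
  have hp := q_hh_pos ha
  have hd : ∀ g ∈ Set.Icc 1 γ, HasDerivAt
      (fun g => Rs a + EE a * (g - 1) + 1 / 3 * (g - 1) ^ 2 - g * RR (hh a / g))
      (EE a + 2 / 3 * (g - 1) - (RR (hh a / g) + (hh a / g) * XX (hh a / g))) g := by
    intro g hg
    have g0 : 0 < g := by linarith [hg.1]
    have d1 := (hasDerivAt_id' g).mul (q_hasDerivAt_RR hp g0)
    have d2 : HasDerivAt (fun g : ℝ => Rs a + EE a * (g - 1) + 1 / 3 * (g - 1) ^ 2)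
        (EE a + 2 / 3 * (g - 1)) g := by
      have e1 := ((hasDerivAt_id' g).sub_const 1)
      have e2 := ((e1.const_mul (EE a)).const_add (Rs a)).add ((e1.pow 2).const_mul (1 / 3))
      exact e2.congr_deriv (by norm_num; ring)
    have d3 := d2.sub d1
    exact d3.congr_deriv (by field_simp)
  have hmono : MonotoneOn (fun g => Rs a + EE a * (g - 1) + 1 / 3 * (g - 1) ^ 2
      - g * RR (hh a / g)) (Set.Icc 1 γ) := by
    refine monotoneOn_of_deriv_nonneg (convex_Icc 1 γ) ?_ ?_ ?_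
    · exact fun g hg => (hd g hg).continuousAt.continuousWithinAt
    · exact fun g hg =>
        (hd g (interior_subset hg)).differentiableAt.differentiableWithinAt
    · intro g hg
      have hg' := interior_subset hg
      rw [(hd g hg').deriv]
      have g0 : 0 < g := by linarith [hg'.1]
      have hx : 0 < hh a / g := div_pos hp g0
      have hle : hh a / g ≤ hh a := by
        rw [div_le_iff₀ g0]
        nlinarith [hg'.1]
      obtain ⟨t, ht, htx⟩ := exists_hh hx (hle.trans_lt (hh_lt ha.1.ne'))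
      have hat : a ≤ t := by
        by_contra hlt
        push Not at hlt
        have := hh_strictAntiOn ⟨ht.1.le, ht.2.le⟩ ⟨ha.1.le, ha.2.le⟩ hlt
        rw [htx] at this
        linarith
      have hW := W1_EE ha.1 hat ht.2
      have e3 : hh a / hh t = g := by
        rw [htx]
        field_simp
      rw [e3] at hW
      have e4 : RR (hh a / g) + (hh a / g) * XX (hh a / g) = EE t := by
        rw [← htx, RR_hh ht, XX_hh ht]
        rfl
      rw [e4]
      have h5 := Real.log_le_sub_one_of_pos g0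
      linarith
  have h6 := hmono (Set.left_mem_Icc.2 h1) (Set.right_mem_Icc.2 h1) h1
  have h7 := qq_one ha
  unfold qq at h7 ⊢
  simp only [sub_self, mul_zero, ne_eq, OfNat.ofNat_ne_zero, not_false_eq_true, zero_pow,
    add_zero] at h6
  linarith

theorem qq_lower {a γ : ℝ} (ha : a ∈ Set.Ioo (0 : ℝ) 1) (h0 : 0 < γ) (h1 : γ ≤ 1) :
    γ * (Rs a + 4 / 7 * a ^ 2 * Real.log γ) ≤ qq a γ := by
  have hp := q_hh_pos ha
  have hd : ∀ g ∈ Set.Icc γ 1, HasDerivAt
      (fun g => RR (hh a / g) - 4 / 7 * a ^ 2 * Real.log g)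
      (((hh a / g) * XX (hh a / g) - 4 / 7 * a ^ 2) / g) g := by
    intro g hg
    have g0 : 0 < g := by linarith [hg.1]
    have d1 := (q_hasDerivAt_RR hp g0).sub
      ((Real.hasDerivAt_log g0.ne').const_mul (4 / 7 * a ^ 2))
    exact d1.congr_deriv (by ring)
  have hanti : AntitoneOn (fun g => RR (hh a / g) - 4 / 7 * a ^ 2 * Real.log g)
      (Set.Icc γ 1) := by
    refine antitoneOn_of_deriv_nonpos (convex_Icc γ 1) ?_ ?_ ?_
    · exact fun g hg => (hd g hg).continuousAt.continuousWithinAt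
    · exact fun g hg =>
        (hd g (interior_subset hg)).differentiableAt.differentiableWithinAt
    · intro g hg
      have hg' := interior_subset hg
      rw [(hd g hg').deriv]
      have g0 : 0 < g := by linarith [hg'.1]
      have hx : 0 < hh a / g := div_pos hp g0
      have hle : hh a ≤ hh a / g := by
        rw [le_div_iff₀ g0]
        nlinarith [hg'.2]
      refine div_nonpos_of_nonpos_of_nonneg ?_ g0.le
      by_cases hlog : hh a / g < Real.log 2
      · obtain ⟨t, ht, htx⟩ := exists_hh hx hlog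
        have hat : t ≤ a := by
          by_contra hlt
          push Not at hlt
          have := hh_strictAntiOn ⟨ha.1.le, ha.2.le⟩ ⟨ht.1.le, ht.2.le⟩ hlt
          rw [htx] at this
          linarith
        rw [← htx, XX_hh ht]
        have hW := W4 ht
        nlinarith [ht.1]
      · push Not at hlog
        rw [XX_zero hlog]
        nlinarith [sq_nonneg a]
  have h6 := hanti (Set.left_mem_Icc.2 h1) (Set.right_mem_Icc.2 h1) h1
  have h7 := RR_hh ha
  simp only [div_one, Real.log_one, mul_zero, sub_zero] at h6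
  rw [h7] at h6
  unfold qq
  exact mul_le_mul_of_nonneg_left (by linarith) h0.le

end P322
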