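import Vale.Agent.P322.W.W6
import Vale.Agent.P322.W.Q

/-! # P322-(ii): the inequality on the curve -/

namespace P322

theorem part_ii {a μ : ℝ} (ha : a ∈ Set.Ioo (0 : ℝ) 1) (hμ : μ ∈ Set.Ico (0 : ℝ) 1) :
    (1 - μ) * (qq a (G1 a μ) - Rs a - qq a (G2 a μ)) ≤ PH a μ := by
  sorry

end P322
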