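import Vale.Agent.P322.W.PartI
import Vale.Agent.P322.W.PartII
import Vale.Agent.P322.W.Curve

/-! # P322-(C_beta) -/

namespace P322

/-- the right-hand side of (C) -/
noncomputable def RW (m d H : ℝ) : ℝ :=
  2 * (hh m - (hh (m + d) + hh (m - d)) / 2) + GW m * RR (H / GW m)
    - GWb m d * RR (H / GWb m d)

theorem CB_GW_pos {m : ℝ} (h0 : -1 < m) (h1 : m < 1) : 0 < GW m := by
  unfold GW
  have h2 : m ^ 2 < 1 := by nlinarith
  exact mul_pos (by linarith) (by linarith)

theorem CB_GWb_pos {m d : ℝ} (hd : 0 < d) (hm0 : 0 ≤ m) (hm : m + d < 1) : 0 < GWb m d := by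
  unfold GWb
  have h1 := CB_GW_pos (m := m + d) (by linarith) hm
  have h2 := CB_GW_pos (m := m - d) (by linarith) (by linarith)
  linarith

theorem CB_hasDerivAt_G {G H : ℝ} (hG : 0 < G) (hH : 0 < H) :
    HasDerivAt (fun H => G * RR (H / G)) (-(XX (H / G))) H := by
  have h1 : HasDerivAt (fun H : ℝ => H / G) (1 / G) H := (hasDerivAt_id' H).div_const G
  have h2 := ((RR_hasDerivAt (div_pos hH hG)).comp H h1).const_mul G
  have e : G * (-(XX (H / G)) * (1 / G)) = -(XX (H / G)) := by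
    field_simp
  rw [e] at h2
  exact h2

theorem CB_hasDerivAt_RW {m d H : ℝ} (hd : 0 < d) (hm0 : 0 ≤ m) (hm : m + d < 1) (hH : 0 < H) :
    HasDerivAt (fun H => RW m d H) (-(XX (H / GW m)) - -(XX (H / GWb m d))) H := by
  have h1 := CB_hasDerivAt_G (CB_GW_pos (m := m) (by linarith) (by linarith)) hH
  have h2 := CB_hasDerivAt_G (CB_GWb_pos hd hm0 hm) hH
  exact (h1.const_add _).sub h2

/-- `RW` is nonincreasing in `H` if `Gbar ≤ G` -/
theorem RW_anti {m d H H' : ℝ} (hd : 0 < d) (hm0 : 0 ≤ m) (hm : m + d < 1)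
    (hG : GWb m d ≤ GW m) (hH : 0 < H) (hHH : H ≤ H') : RW m d H' ≤ RW m d H := by
  have hpos : ∀ x ∈ Set.Icc H H', 0 < x := fun x hx => hH.trans_le hx.1
  have hanti : AntitoneOn (fun H => RW m d H) (Set.Icc H H') := by
    refine antitoneOn_of_deriv_nonpos (convex_Icc H H') ?_ ?_ ?_
    · exact fun x hx => (CB_hasDerivAt_RW hd hm0 hm (hpos x hx)).continuousAt.continuousWithinAt
    · exact fun x hx => (CB_hasDerivAt_RW hd hm0 hm
        (hpos x (interior_subset hx))).differentiableAt.differentiableWithinAt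
    · intro x hx
      have hx0 := hpos x (interior_subset hx)
      rw [(CB_hasDerivAt_RW hd hm0 hm hx0).deriv]
      have hGb := CB_GWb_pos hd hm0 hm
      have h1 : XX (x / GWb m d) ≤ XX (x / GW m) :=
        XX_antitone (div_pos hx0 (hGb.trans_le hG)) (div_le_div_of_nonneg_left hx0.le hGb hG)
      linarith
  exact hanti (Set.left_mem_Icc.2 hHH) (Set.right_mem_Icc.2 hHH) hHH

/-- if `G ≤ Gbar` then `RW ≤ 2Δ` -/
theorem CB_RW_le {m d H : ℝ} (hd : 0 < d) (hm0 : 0 ≤ m) (hm : m + d < 1)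
    (hG : GW m ≤ GWb m d) (hH : 0 < H) :
    RW m d H ≤ 2 * (hh m - (hh (m + d) + hh (m - d)) / 2) := by
  have hGp := CB_GW_pos (m := m) (by linarith) (by linarith)
  have hGb := CB_GWb_pos hd hm0 hm
  have h1 : H / GWb m d ≤ H / GW m := div_le_div_of_nonneg_left hH.le hGp hG
  have h2 := der_line (div_pos hH hGp) (div_pos hH hGb)
  have h3 := mul_nonneg (XX_nonneg (H / GW m)) (sub_nonneg.2 h1)
  have h4 : RR (H / GW m) ≤ RR (H / GWb m d) := by nlinarith
  have h5 := mul_le_mul hG h4 (RR_nonneg _) hGb.le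
  unfold RW
  linarith

theorem CB_mono_s {s s' d H H' : ℝ} (hd : 0 < d) (hs : s ∈ Set.Ioo (0 : ℝ) 1)
    (hs' : s' ∈ Set.Ioo (0 : ℝ) 1) (hsH : hh s * d = s * H) (hsH' : hh s' * d = s' * H')
    (hHH : H ≤ H') : s' ≤ s := by
  by_contra hlt
  push Not at hlt
  have h1 := hh_strictAntiOn ⟨hs.1.le, hs.2.le⟩ ⟨hs'.1.le, hs'.2.le⟩ hlt
  have h2 : 0 < hh s' := hh_pos ⟨by linarith [hs'.1], hs'.2⟩
  have h3 : 0 < H := by
    have : 0 < s * H := by rw [← hsH]; exact mul_pos (h2.trans h1) hd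
    exact (mul_pos_iff_of_pos_left hs.1).1 this
  have h4 : hh s' * d < hh s * d := mul_lt_mul_of_pos_right h1 hd
  rw [hsH, hsH'] at h4
  have h5 : s * H ≤ s' * H' := mul_le_mul hlt.le hHH h3.le hs'.1.le
  linarith

theorem CB_hasDerivAt_Hs {d t : ℝ} (ht : t ∈ Set.Ioo (0 : ℝ) 1) :
    HasDerivAt (fun t => d * hh t / t) (-(d * ell t / t ^ 2)) t := by
  have ht' : t ∈ Set.Ioo (-1 : ℝ) 1 := ⟨by linarith [ht.1], ht.2⟩
  have h := ((hasDerivAt_hh ht').const_mul d).div (hasDerivAt_id' t) ht.1.ne'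
  have e : (d * -ath t * t - d * hh t * 1) / t ^ 2 = -(d * ell t / t ^ 2) := by
    rw [hh_eq ht']
    ring
  rw [e] at h
  exact h

/-- `J0 - RW` is nonincreasing in `H` -/
theorem J0_sub_RW {m d H H' s s' : ℝ} (hd : 0 < d) (hm0 : 0 ≤ m) (hm : m + d < 1)
    (hHH : H ≤ H') (hs : s ∈ Set.Ioo (0 : ℝ) 1) (hs' : s' ∈ Set.Ioo (0 : ℝ) 1)
    (hsH : hh s * d = s * H) (hsH' : hh s' * d = s' * H') (hds : d ≤ s') :
    d * ath s' - RW m d H' ≤ d * ath s - RW m d H := by
  have hss := CB_mono_s hd hs hs' hsH hsH' hHH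
  have hI : ∀ t ∈ Set.Icc s' s, t ∈ Set.Ioo (0 : ℝ) 1 := fun t ht =>
    ⟨hs'.1.trans_le ht.1, ht.2.trans_lt hs.2⟩
  have hder : ∀ t ∈ Set.Icc s' s, HasDerivAt (fun t => d * ath t - RW m d (d * hh t / t))
      (d * (1 / (1 - t ^ 2)) - (-(XX ((d * hh t / t) / GW m)) - -(XX ((d * hh t / t) / GWb m d)))
        * -(d * ell t / t ^ 2)) t := by
    intro t ht
    have ht1 := hI t ht
    have ht' : t ∈ Set.Ioo (-1 : ℝ) 1 := ⟨by linarith [ht1.1], ht1.2⟩
    have hp : 0 < d * hh t / t := div_pos (mul_pos hd (hh_pos ht')) ht1.1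
    have hc := HasDerivAt.comp (h := fun t => d * hh t / t) (h₂ := fun H => RW m d H) t
      (CB_hasDerivAt_RW hd hm0 hm hp) (CB_hasDerivAt_Hs (d := d) ht1)
    exact ((hasDerivAt_ath ht').const_mul d).sub hc
  have hmono : MonotoneOn (fun t => d * ath t - RW m d (d * hh t / t)) (Set.Icc s' s) := by
    refine monotoneOn_of_deriv_nonneg (convex_Icc s' s) ?_ ?_ ?_
    · exact fun t ht => (hder t ht).continuousAt.continuousWithinAt
    · exact fun t ht =>
        (hder t (interior_subset ht)).differentiableAt.differentiableWithinAt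
    · intro t ht
      have ht0 := interior_subset ht
      have ht1 := hI t ht0
      have ht' : t ∈ Set.Ioo (-1 : ℝ) 1 := ⟨by linarith [ht1.1], ht1.2⟩
      rw [(hder t ht0).deriv]
      have hp : 0 < d * hh t / t := div_pos (mul_pos hd (hh_pos ht')) ht1.1
      have hpi := part_i hd hm0 hm hp ht1 (by field_simp [ht1.1.ne']) (hds.trans ht0.1)
      have h1 : 0 < 1 - t ^ 2 := by nlinarith [ht1.1, ht1.2]
      have hell : 0 < ell t := by
        have e1 := hh_eq ht'
        have e2 := hh_pos ht'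
        have e3 := mul_pos ht1.1 (ath_pos ht1.1 ht1.2)
        linarith
      have e4 : d * (1 / (1 - t ^ 2)) = BB t * (d * ell t / t ^ 2) := by
        unfold BB
        have := ht1.1.ne'
        field_simp
      have h5 : 0 < d * ell t / t ^ 2 := div_pos (mul_pos hd hell) (pow_pos ht1.1 2)
      rw [e4]
      have h6 := mul_le_mul_of_nonneg_right hpi h5.le
      linarith
  have h := hmono (Set.left_mem_Icc.2 hss) (Set.right_mem_Icc.2 hss) hss
  simp only at h
  have e1 : d * hh s / s = H := by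
    rw [div_eq_iff hs.1.ne']; linarith
  have e2 : d * hh s' / s' = H' := by
    rw [div_eq_iff hs'.1.ne']; linarith
  rw [e1, e2] at h
  exact h

theorem C_beta_nonneg {m d H s : ℝ} (hd : 0 < d) (hm0 : 0 ≤ m) (hm : m + d < 1) (hH0 : 0 < H)
    (hs : s ∈ Set.Ioo (0 : ℝ) 1) (hsH : hh s * d = s * H) :
    RW m d H ≤ max (jj (m + d) (m - d)) (d * ath s) := by
  obtain ⟨a, ha, μ, hμ, hda, hma, hjj, hΔ⟩ := curve_param hd hm0 hm
  have hRs : 0 ≤ Lm a - a * ath a := by rw [← Rs_eq ha]; exact Rs_nonneg ha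
  have hμ1 : 0 < 1 - μ := by linarith [hμ.2]
  have hd' : d ≤ a := by
    rw [hda]
    nlinarith [hμ.1, ha.1]
  rcases le_total (GW m) (GWb m d) with hG | hG
  · refine le_max_of_le_left ((CB_RW_le hd hm0 hm hG hH0).trans ?_)
    have hPH := PH_nonneg ha hμ
    rw [hΔ, hjj, hda]
    nlinarith
  · have hha : 0 < hh a := hh_pos ⟨by linarith [ha.1], ha.2⟩
    have hHs : 0 < (1 - μ) * hh a := mul_pos hμ1 hha
    have haH : hh a * d = a * ((1 - μ) * hh a) := by rw [hda]; ring
    -- the value at `H*`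
    have hstar : RW m d ((1 - μ) * hh a) ≤ d * ath a := by
      obtain ⟨hG1, hG2⟩ := GW_curve ha hμ
      rw [← hma, ← hda] at hG2
      rw [← hma] at hG1
      have hp := part_ii ha hμ
      unfold RW
      rw [hΔ, hG1, hG2]
      have e1 : (1 - μ) * G1 a μ * RR ((1 - μ) * hh a / ((1 - μ) * G1 a μ))
          = (1 - μ) * qq a (G1 a μ) := by
        unfold qq
        rw [mul_div_mul_left _ _ hμ1.ne', mul_assoc]
      have e2 : (1 - μ) * G2 a μ * RR ((1 - μ) * hh a / ((1 - μ) * G2 a μ))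
          = (1 - μ) * qq a (G2 a μ) := by
        unfold qq
        rw [mul_div_mul_left _ _ hμ1.ne', mul_assoc]
      rw [e1, e2]
      have e3 := Rs_eq ha
      rw [hda]
      nlinarith
    rcases le_total ((1 - μ) * hh a) H with hHle | hHle
    · refine le_max_of_le_left ?_
      rw [hjj]
      exact (RW_anti hd hm0 hm hG hHs hHle).trans hstar
    · refine le_max_of_le_right ?_
      have := J0_sub_RW hd hm0 hm hHle hs ha hsH haH hd'
      linarith

theorem CB_GW_neg (m : ℝ) : GW (-m) = GW m := by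
  unfold GW
  ring

theorem C_beta {m d H s : ℝ} (hd : 0 < d) (hm : |m| + d < 1) (hH0 : 0 < H)
    (hs : s ∈ Set.Ioo (0 : ℝ) 1) (hsH : hh s * d = s * H) :
    RW m d H ≤ max (jj (m + d) (m - d)) (d * ath s) := by
  rcases le_total 0 m with h0 | h0
  · rw [abs_of_nonneg h0] at hm
    exact C_beta_nonneg hd h0 hm hH0 hs hsH
  · rw [abs_of_nonpos h0] at hm
    have h := C_beta_nonneg hd (neg_nonneg.2 h0) hm hH0 hs hsH
    have e1 : -m + d = -(m - d) := by ring
    have e2 : -m - d = -(m + d) := by ring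
    have e3 : RW (-m) d H = RW m d H := by
      unfold RW GWb
      rw [e1, e2, hh_neg, hh_neg, hh_neg, CB_GW_neg, CB_GW_neg, CB_GW_neg]
      ring_nf
    have e4 : jj (-m + d) (-m - d) = jj (m + d) (m - d) := by
      unfold jj
      rw [e1, e2, ath_neg ⟨by linarith, by linarith⟩, ath_neg ⟨by linarith, by linarith⟩]
      ring
    rw [e3, e4] at h
    exact h

end P322
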