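import Vale.Agent.P322.W.Base

/-! # P322-W2: `γ ↦ X(x/γ)` is concave on `γ ≥ x/log 2` -/

namespace P322

/-- three-point form: `rr` is a concave function of `1/h` -/
theorem W2_chord {s t u : ℝ} (hs : 0 < s) (hst : s ≤ t) (htu : t ≤ u) (hu : u < 1) :
    (rr u - rr t) * (1 / hh t - 1 / hh s) ≤ (rr t - rr s) * (1 / hh u - 1 / hh t) := by
  sorry

/-- consequence: increments of `γ ↦ X(x/γ)` are largest at the left end `x/log 2` -/
theorem W2_incr {x γ γ' : ℝ} (hx : 0 < x) (h1 : x / Real.log 2 ≤ γ') (h2 : γ' ≤ γ) :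
    XX (x / γ) - XX (x / γ') ≤ XX (x / (x / Real.log 2 + (γ - γ'))) := by
  sorry

end P322
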