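import Vale.Agent.P322.W.Base

/-! # P322-W6: the two-parameter inequality -/

namespace P322

theorem PH_nonneg {a μ : ℝ} (ha : a ∈ Set.Ioo (0 : ℝ) 1) (hμ : μ ∈ Set.Ico (0 : ℝ) 1) :
    0 ≤ PH a μ := by
  sorry

/-- option 1 -/
noncomputable def F1 (a μ : ℝ) : ℝ :=
  EE a * (G1 a μ - 1) + 1 / 3 * (G1 a μ - 1) ^ 2

/-- lower bound for `q(γ)`: the `0.61` bound and the tangent line at `s = 3/4` -/
noncomputable def lq (a γ : ℝ) : ℝ :=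
  max (γ * (Rs a - 61 / 100 * a ^ 2 * max 0 (-Real.log γ)))
    (EE (3 / 4) * γ - rr (3 / 4) * hh a)

theorem G2_pos {a μ : ℝ} (ha : a ∈ Set.Ioo (0 : ℝ) 1) (hμ : μ ∈ Set.Ico (0 : ℝ) 1) :
    0 < G2 a μ := by
  sorry

theorem W6 {a μ : ℝ} (ha : a ∈ Set.Ioo (0 : ℝ) 1) (hμ : μ ∈ Set.Ico (0 : ℝ) 1)
    (hG : 1 < G1 a μ) : (1 - μ) * (F1 a μ - max 0 (lq a (G2 a μ))) ≤ PH a μ := by
  sorry

end P322
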