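import Vale.Agent.P322.W.Curve
import Vale.Agent.P322.W.W6

/-! # P322-(E1) -/

namespace P322

/-- sublinearity of the perspective of `R` -/
theorem persp_sub {g l H a : ℝ} (ha : a ∈ Set.Ioo (0 : ℝ) 1) (hl : 0 < l) (hg : l ≤ g)
    (hH : l * hh a + (g - l) * Real.log 2 ≤ H) : g * RR (H / g) ≤ l * Rs a := by
  have hg0 : 0 < g := lt_of_lt_of_le hl hg
  have hlog : 0 < Real.log 2 := Real.log_pos one_lt_two
  have hha : 0 < hh a := hh_pos ⟨by linarith [ha.1], ha.2⟩
  have hH0 : 0 < H := by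
    have h1 : 0 < l * hh a := mul_pos hl hha
    have h2 : 0 ≤ (g - l) * Real.log 2 := mul_nonneg (by linarith) hlog.le
    linarith
  by_cases hx : H / g < Real.log 2
  · obtain ⟨s, hs, hse⟩ := exists_hh (div_pos hH0 hg0) hx
    rw [← hse, RR_hh hs]
    have hHg : H = g * hh s := by rw [hse]; field_simp
    have h1 := Rs_line hs ha
    have h2 := Rs_line_log2 hs
    have h3 := rr_nonneg hs
    have h4 := mul_le_mul_of_nonneg_left h1 hl.le
    have h5 := mul_le_mul_of_nonneg_left h2 (sub_nonneg.2 hg)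
    have h6 := mul_le_mul_of_nonneg_left hH h3
    rw [hHg] at h6
    nlinarith
  · push Not at hx
    rw [RR_zero hx, mul_zero]
    exact mul_nonneg hl.le (Rs_nonneg ha)

theorem E1_nonneg {m d : ℝ} (hd : 0 < d) (hm0 : 0 ≤ m) (hm : m + d < 1) :
    2 * (hh m - (hh (m + d) + hh (m - d)) / 2)
      + (1 - m ^ 2) * RR (((hh (m + d) + hh (m - d)) / 2) / (1 - m ^ 2)) ≤ jj (m + d) (m - d) := by
  obtain ⟨a, ha, μ, hμ, hda, hma, hj, hD⟩ := curve_param hd hm0 hm
  have hP := PH_nonneg ha hμ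
  have hRs := Rs_eq ha
  have hl : 0 < 1 - μ := by linarith [hμ.2]
  have ha2 : a ^ 2 < 1 := by nlinarith [ha.1, ha.2]
  have hb : 0 < bW a μ := by
    unfold bW
    have := mul_nonneg (sq_nonneg a) hμ.1
    linarith
  have hm2 : m ^ 2 = μ * bW a μ := by
    rw [hma, Real.sq_sqrt (mul_nonneg hμ.1 hb.le)]
  have hg : 1 - m ^ 2 = (1 - μ) * (1 + a ^ 2 * μ) := by
    rw [hm2]; unfold bW; ring
  have hmI : m ∈ Set.Icc (-1 : ℝ) 1 := ⟨by linarith, by linarith⟩
  have hq := hh_ge_quad hmI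
  have hle : 1 - μ ≤ 1 - m ^ 2 := by
    rw [hg]
    have := mul_nonneg hl.le (mul_nonneg (sq_nonneg a) hμ.1)
    nlinarith
  have hhb : hh a = ell a - a * ath a := hh_eq ⟨by linarith [ha.1], ha.2⟩
  have hell : ell a = Real.log 2 + Lm a / 2 := by unfold ell Lm; ring
  have hH : (1 - μ) * hh a + ((1 - m ^ 2) - (1 - μ)) * Real.log 2
      ≤ (hh (m + d) + hh (m - d)) / 2 := by
    have e1 : (hh (m + d) + hh (m - d)) / 2
        = hh m - ((1 - μ) * (2 * a * ath a - Lm a) - PH a μ) / 2 := by linarith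
    rw [e1, hhb, hell]
    nlinarith
  have hp := persp_sub ha hl hle hH
  have e2 : d * ath a = (1 - μ) * a * ath a := by rw [← hda]
  rw [hj, hD, e2]
  rw [hRs] at hp
  linarith

theorem E1 {m d : ℝ} (hd : 0 < d) (hm : |m| + d < 1) :
    2 * (hh m - (hh (m + d) + hh (m - d)) / 2)
      + (1 - m ^ 2) * RR (((hh (m + d) + hh (m - d)) / 2) / (1 - m ^ 2)) ≤ jj (m + d) (m - d) := by
  rcases le_total 0 m with h | h
  · rw [abs_of_nonneg h] at hm
    exact E1_nonneg hd h hm
  · rw [abs_of_nonpos h] at hm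
    have h1 := E1_nonneg (m := -m) hd (by linarith) hm
    have e1 : hh (-m + d) = hh (m - d) := by
      rw [← hh_neg (m - d)]; congr 1; ring
    have e2 : hh (-m - d) = hh (m + d) := by
      rw [← hh_neg (m + d)]; congr 1; ring
    have e3 : jj (-m + d) (-m - d) = jj (m + d) (m - d) := by
      have a1 : ath (-m + d) = -ath (m - d) := by
        rw [← ath_neg (u := m - d) ⟨by linarith, by linarith⟩]; congr 1; ring
      have a2 : ath (-m - d) = -ath (m + d) := by
        rw [← ath_neg (u := m + d) ⟨by linarith, by linarith⟩]; congr 1; ring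
      unfold jj
      rw [a1, a2]
      ring
    rw [e1, e2, e3, hh_neg, neg_sq] at h1
    have e4 : (hh (m - d) + hh (m + d)) / 2 = (hh (m + d) + hh (m - d)) / 2 := by ring
    rw [e4] at h1
    exact h1

end P322
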