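import Vale.Agent.P322.W.OneDefs
import Vale.Agent.P322.Defs

/-!
Basic facts on `hu`, and the dictionary with `hh, ath, rr, ell, BB`.
With `q = exp (-u)`: `hu u = log (1+q) + u q/(1+q)` (as `2 cosh (u/2) = exp(u/2) (1+q)`,
`tanh (u/2) = (1-q)/(1+q)`).
-/

namespace P322.W

theorem hu_eq (u : ℝ) :
    hu u = Real.log (1 + Real.exp (-u)) + u * Real.exp (-u) / (1 + Real.exp (-u)) := by
  sorry

theorem hz_eq_hu (z : ℝ) : hz z = hu (2 * z) := by
  sorry

theorem hu_pos {u : ℝ} (hu0 : 0 ≤ u) : 0 < hu u := by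
  sorry

theorem hu_zero : hu 0 = Real.log 2 := by
  sorry

theorem hasDerivAt_hu (u : ℝ) :
    HasDerivAt hu (-u / (4 * Real.cosh (u / 2) ^ 2)) u := by
  sorry

theorem hu_le_log_two {u : ℝ} (hu0 : 0 ≤ u) : hu u ≤ Real.log 2 := by
  sorry

/-- `hu u ≤ (1+u) e^{-u}` -/
theorem hu_le_exp {u : ℝ} (hu0 : 0 ≤ u) : hu u ≤ (1 + u) * Real.exp (-u) := by
  sorry

theorem tendsto_hu : Filter.Tendsto hu Filter.atTop (nhds 0) := by
  sorry

/-! dictionary -/

theorem ath_tanh (z : ℝ) : ath (Real.tanh z) = z := by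
  sorry

theorem tanh_ath {s : ℝ} (hs : |s| < 1) : Real.tanh (ath s) = s := by
  sorry

theorem hh_tanh (z : ℝ) : hh (Real.tanh z) = hz z := by
  sorry

theorem rr_tanh {z : ℝ} (hz0 : 0 < z) : rr (Real.tanh z) = xi z := by
  sorry

theorem ell_tanh (z : ℝ) : ell (Real.tanh z) = Real.log (2 * Real.cosh z) := by
  sorry

theorem BB_tanh (z : ℝ) : BB (Real.tanh z) = Real.sinh z ^ 2 / Real.log (2 * Real.cosh z) := by
  sorry

theorem Rs_tanh (z : ℝ) : Rs (Real.tanh z) = 2 * Real.log (Real.cosh z) - z * Real.tanh z := by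
  sorry

end P322.W
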