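import Vale.Agent.P322.W.Base

/-! # P322-W1: `x² R''(x) ≤ 2/3` in integrated form -/

namespace P322

/-- `E(t) - E(s) ≤ (2/3) log (h(s)/h(t))` -/
theorem W1_EE {s t : ℝ} (hs : 0 < s) (hst : s ≤ t) (ht : t < 1) :
    EE t - EE s ≤ 2 / 3 * Real.log (hh s / hh t) := by
  sorry

/-- `rr t - rr s ≤ (2/3) (1/h(t) - 1/h(s))` -/
theorem W1_rr {s t : ℝ} (hs : 0 < s) (hst : s ≤ t) (ht : t < 1) :
    rr t - rr s ≤ 2 / 3 * (1 / hh t - 1 / hh s) := by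
  sorry

end P322
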