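import Mathlib

/-!
# P322, one-variable facts: definitions (parameter `u = 2 z`)
-/

namespace P322.W

open Real

/-- `h` in the parameter `u = 2 z`: `hu u = hh (tanh (u/2))`. -/
noncomputable def hu (u : ℝ) : ℝ := Real.log (2 * Real.cosh (u / 2)) - u / 2 * Real.tanh (u / 2)

/-- `h` in the parameter `z`. -/
noncomputable def hz (z : ℝ) : ℝ := Real.log (2 * Real.cosh z) - z * Real.tanh z

/-- `ξ(z) = sinh (2z)/(2z) - 1`. -/
noncomputable def xi (z : ℝ) : ℝ := Real.sinh (2 * z) / (2 * z) - 1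

/-- `N(u) = u cosh u - sinh u`. -/
noncomputable def NN (u : ℝ) : ℝ := u * Real.cosh u - Real.sinh u

/-- `q̃(u) = u s N + c u² S - 3 c N`, `s, c = sinh, cosh (u/2)`. -/
noncomputable def qt (u : ℝ) : ℝ :=
  u * Real.sinh (u / 2) * NN u + Real.cosh (u / 2) * u ^ 2 * Real.sinh u
    - 3 * Real.cosh (u / 2) * NN u

/-- `K(u) = u² N / (2 c q̃)`. -/
noncomputable def KK (u : ℝ) : ℝ := u ^ 2 * NN u / (2 * Real.cosh (u / 2) * qt u)

/-- `ω` in the parameter `u`: `ω = 4 h² c² N / u³ = x² R''(x)`. -/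
noncomputable def omu (u : ℝ) : ℝ := 4 * hu u ^ 2 * Real.cosh (u / 2) ^ 2 * NN u / u ^ 3

end P322.W
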