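import Vale.Agent.P322.W.Base

/-! # P322-PH: nonnegativity of `PH` (monotone in `a`) -/

namespace P322

/-- the function of `α = a²` -/
private noncomputable def PHg (μ α : ℝ) : ℝ :=
  μ * (-Real.log (1 - α)) + Real.log (1 + α * μ)
    - 2 * Real.sqrt (μ * (1 - α + α * μ)) * ath (α * μ / Real.sqrt (μ * (1 - α + α * μ)))

private theorem PHg_deriv {μ α : ℝ} (hμ0 : 0 < μ) (hμ1 : μ < 1) (hα0 : 0 ≤ α) (hα1 : α < 1) :
    HasDerivAt (PHg μ) (μ * (1 - μ) / Real.sqrt (μ * (1 - α + α * μ)) *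
      ath (α * μ / Real.sqrt (μ * (1 - α + α * μ)))) α := by
  set b : ℝ := 1 - α + α * μ with hb
  have hαμ : 0 ≤ α * μ := mul_nonneg hα0 hμ0.le
  have hb0 : 0 < b := by rw [hb]; linarith
  have hμb : 0 < μ * b := mul_pos hμ0 hb0
  set m : ℝ := Real.sqrt (μ * b) with hm
  have hm0 : 0 < m := Real.sqrt_pos.2 hμb
  have hm2 : m ^ 2 = μ * b := Real.sq_sqrt hμb.le
  have h1α : 0 < 1 - α := by linarith
  have h1αμ : 0 < 1 + α * μ := by linarith
  -- derivative of m
  have hdm : HasDerivAt (fun α : ℝ => Real.sqrt (μ * (1 - α + α * μ)))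
      (μ * (-1 + μ) / (2 * m)) α := by
    have h1 : HasDerivAt (fun α : ℝ => μ * (1 - α + α * μ)) (μ * (-1 + 1 * μ)) α :=
      (((hasDerivAt_id α).const_sub 1).add ((hasDerivAt_id α).mul_const μ)).const_mul μ
    have h2 := h1.sqrt hμb.ne'
    simpa [one_mul] using h2
  have hx2 : (α * μ / m) ^ 2 < 1 := by
    rw [div_pow, hm2, div_lt_one hμb]
    have : α ^ 2 * μ < b := by
      have : b - α ^ 2 * μ = (1 - α) * (1 + α * μ) := by rw [hb]; ring
      have h3 := mul_pos h1α h1αμ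
      linarith
    nlinarith
  have hx0 : 0 ≤ α * μ / m := div_nonneg hαμ hm0.le
  have hx1 : α * μ / m < 1 := by nlinarith
  have hdx : HasDerivAt (fun α : ℝ => α * μ / Real.sqrt (μ * (1 - α + α * μ)))
      ((1 * μ * m - α * μ * (μ * (-1 + μ) / (2 * m))) / m ^ 2) α :=
    ((hasDerivAt_id α).mul_const μ).div hdm hm0.ne'
  have hda := (hasDerivAt_ath (u := α * μ / m) ⟨by linarith, hx1⟩).comp α hdx
  have hl1 : HasDerivAt (fun α : ℝ => μ * (-Real.log (1 - α))) (μ * (-(-1 / (1 - α)))) α :=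
    ((((hasDerivAt_id α).const_sub 1).log h1α.ne').neg).const_mul μ
  have hl2 : HasDerivAt (fun α : ℝ => Real.log (1 + α * μ)) (1 * μ / (1 + α * μ)) α :=
    (((hasDerivAt_id α).mul_const μ).const_add 1).log h1αμ.ne'
  have htot := (hl1.add hl2).sub ((hdm.const_mul 2).mul hda)
  have hconv := htot.congr_deriv (g' := μ * (1 - μ) / m * ath (α * μ / m)) (by
    simp only [Function.comp]
    have e1 : 1 - (α * μ / m) ^ 2 = (1 - α) * (1 + α * μ) / b := by
      rw [div_pow, hm2, hb]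
      have : (1 - α + α * μ) ≠ 0 := hb0.ne'
      field_simp
      ring
    rw [← hm, e1]
    have e2 : (1 * μ * m - α * μ * (μ * (-1 + μ) / (2 * m))) / m ^ 2
        = (μ / m) * (((1 - α) + (1 + α * μ)) / (2 * b)) := by
      have e3 : (1 * μ * m - α * μ * (μ * (-1 + μ) / (2 * m)))
          = μ * (2 * m ^ 2 + α * μ * (1 - μ)) / (2 * m) := by
        field_simp
        ring
      rw [e3, hm2, hb]
      have : (1 - α + α * μ) ≠ 0 := hb0.ne'
      field_simp
      ring
    rw [e2]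
    field_simp
    ring)
  exact hconv

theorem PH_nonneg' {a μ : ℝ} (ha : a ∈ Set.Ioo (0 : ℝ) 1) (hμ : μ ∈ Set.Ico (0 : ℝ) 1) :
    0 ≤ PH a μ := by
  rcases eq_or_lt_of_le hμ.1 with h0 | h0
  · unfold PH bW
    rw [← h0]
    simp
  have hα1 : a ^ 2 < 1 := by nlinarith [ha.1, ha.2]
  have hmono : MonotoneOn (PHg μ) (Set.Icc 0 (a ^ 2)) := by
    apply monotoneOn_of_deriv_nonneg (convex_Icc _ _)
    · intro x hx
      exact (PHg_deriv h0 hμ.2 hx.1 (lt_of_le_of_lt hx.2 hα1)).continuousAt.continuousWithinAt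
    · rw [interior_Icc]
      intro x hx
      exact (PHg_deriv h0 hμ.2 hx.1.le
        (lt_trans hx.2 hα1)).differentiableAt.differentiableWithinAt
    · rw [interior_Icc]
      intro x hx
      have hx1 : x < 1 := lt_trans hx.2 hα1
      rw [(PHg_deriv h0 hμ.2 hx.1.le hx1).deriv]
      have hxμ : 0 ≤ x * μ := mul_nonneg hx.1.le h0.le
      have hb0 : 0 < 1 - x + x * μ := by linarith
      have hμb : 0 < μ * (1 - x + x * μ) := mul_pos h0 hb0
      have hm0 : 0 < Real.sqrt (μ * (1 - x + x * μ)) := Real.sqrt_pos.2 hμb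
      have hm2 : Real.sqrt (μ * (1 - x + x * μ)) ^ 2 = μ * (1 - x + x * μ) := Real.sq_sqrt hμb.le
      have hpos : 0 < x * μ / Real.sqrt (μ * (1 - x + x * μ)) :=
        div_pos (mul_pos hx.1 h0) hm0
      have hlt : x * μ / Real.sqrt (μ * (1 - x + x * μ)) < 1 := by
        have h2 : (x * μ / Real.sqrt (μ * (1 - x + x * μ))) ^ 2 < 1 := by
          rw [div_pow, hm2, div_lt_one hμb]
          have h3 : x ^ 2 * μ < 1 - x + x * μ := by
            have : (1 - x + x * μ) - x ^ 2 * μ = (1 - x) * (1 + x * μ) := by ring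
            have h4 : 0 < (1 - x) * (1 + x * μ) := mul_pos (by linarith) (by linarith)
            linarith
          nlinarith
        nlinarith
      have hath := ath_pos hpos hlt
      have h5 : 0 ≤ 1 - μ := by linarith [hμ.2]
      positivity
  have hle := hmono (a := 0) (b := a ^ 2) ⟨le_refl _, sq_nonneg a⟩ ⟨sq_nonneg a, le_refl _⟩
    (sq_nonneg a)
  have hg0 : PHg μ 0 = 0 := by
    unfold PHg
    have : ath 0 = 0 := by unfold ath; simp
    simp [this]
  rw [hg0] at hle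
  have hb0 : 0 < bW a μ := by
    unfold bW
    have := mul_nonneg (sq_nonneg a) hμ.1
    linarith
  have hμb : 0 < μ * bW a μ := mul_pos h0 hb0
  have hs : a ^ 2 * Real.sqrt (μ / bW a μ) = a ^ 2 * μ / Real.sqrt (μ * bW a μ) := by
    have h1 : Real.sqrt (μ / bW a μ) = μ / Real.sqrt (μ * bW a μ) := by
      rw [eq_div_iff (Real.sqrt_pos.2 hμb).ne', ← Real.sqrt_mul (by positivity)]
      have h2 : μ / bW a μ * (μ * bW a μ) = μ ^ 2 := by
        field_simp
      rw [h2, Real.sqrt_sq h0.le]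
    rw [h1]
    ring
  have heq : PH a μ = PHg μ (a ^ 2) := by
    unfold PH PHg Lm
    rw [hs]
    unfold bW
    ring_nf
  rw [heq]
  exact hle

end P322
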