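import Vale.Agent.P322.W.OneDefs

/-!
Padé inequalities for `tanh`. Method for all: `f 0 = 0` and `f' ≥ 0` on `[0,∞)`
(`monotoneOn_of_deriv_nonneg` or `image_le_of_...`); each derivative is `u *` (previous one).
With `S = sinh u, C = cosh u`:
* `(u C - S)' = u S`;
* `(S (3+u²) - 3 u C)' = u (u C - S)`;
* `(u C (15+u²) - S (15+6u²))' = u (S (3+u²) - 3 u C)`;
* `(S (105+45u²+u⁴) - u C (105+10u²))' = u (u C (15+u²) - S (15+6u²))`;
* `(u C (945+105u²+u⁴) - S (945+420u²+15u⁴))' = u (S (105+45u²+u⁴) - u C (105+10u²))`.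
-/

namespace P322.W

theorem NN_nonneg {u : ℝ} (hu : 0 ≤ u) : 0 ≤ NN u := by
  sorry

theorem NN_pos {u : ℝ} (hu : 0 < u) : 0 < NN u := by
  sorry

theorem pade1 {u : ℝ} (hu : 0 ≤ u) :
    3 * u * Real.cosh u ≤ Real.sinh u * (3 + u ^ 2) := by
  sorry

theorem pade1_strict {u : ℝ} (hu : 0 < u) :
    3 * u * Real.cosh u < Real.sinh u * (3 + u ^ 2) := by
  sorry

theorem pade2 {u : ℝ} (hu : 0 ≤ u) :
    Real.sinh u * (15 + 6 * u ^ 2) ≤ u * Real.cosh u * (15 + u ^ 2) := by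
  sorry

theorem pade3 {u : ℝ} (hu : 0 ≤ u) :
    u * Real.cosh u * (105 + 10 * u ^ 2) ≤ Real.sinh u * (105 + 45 * u ^ 2 + u ^ 4) := by
  sorry

theorem pade4 {u : ℝ} (hu : 0 ≤ u) :
    Real.sinh u * (945 + 420 * u ^ 2 + 15 * u ^ 4)
      ≤ u * Real.cosh u * (945 + 105 * u ^ 2 + u ^ 4) := by
  sorry

/-- `tanh (u/2) ≤ u (60+u²)/(12 (10+u²))` (from `pade2` at `u/2`). -/
theorem tanh_half_le {u : ℝ} (hu : 0 ≤ u) :
    Real.tanh (u / 2) ≤ u * (60 + u ^ 2) / (12 * (10 + u ^ 2)) := by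
  sorry

end P322.W
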