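import Vale.Agent.P322.W.W3
import Vale.Agent.P322.W.Conc
import Vale.Agent.P322.W.Om
import Vale.Agent.P322.W.Der

/-! # P322-(i): the derivative inequality -/

namespace P322

theorem part_i {m d H a : ℝ} (hd : 0 < d) (hm0 : 0 ≤ m) (hm : m + d < 1) (hH0 : 0 < H)
    (ha : a ∈ Set.Ioo (0 : ℝ) 1) (haH : hh a * d = a * H) (hda : d ≤ a) :
    XX (H / GW m) - XX (H / GWb m d) ≤ BB a := by
  sorry

end P322
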