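import Vale.Agent.P322.W.W2c

/-!
`ω ≤ 2/3`: by `omu_antitone`, `omu u ≤ omu v` for all small `v`, and for `v ≤ 1/5`:
`hu v ≤ log 2 ≤ 0.6932`, `N ≤ v² S/3` (`pade1`), so
`omu v ≤ (4/3) log² 2 · cosh²(v/2) · (sinh v / v) ≤ 2/3` (true value `0.6406` at `v → 0`; at
`v = 1/5` the two last factors are `1.0100 * 1.0067`, and `1.0405` is allowed).
(Or let `v → 0` : limit `(4/3) log² 2 < 2/3`.)
-/

namespace P322.W

theorem omu_le {u : ℝ} (hu0 : 0 < u) : omu u ≤ 2 / 3 := by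
  sorry

end P322.W
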