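import Vale.Agent.P322.W.Pade

/-!
Key inequality. Put `ρ = u² S / N > 0`, `t = tanh (u/2)`. Dividing by `N² > 0` the claim is
`3 ρ² - 8 ρ - 3 - 3 u² + 2 u t ≤ 0`.
Case `u ≥ 18/5`: `N ≥ (u-1) S` (as `C ≥ S`), so `ρ ≤ u²/(u-1)`, `t ≤ 1`; the left side is
increasing in `ρ` for `ρ ≥ 4/3` (and `ρ ≥ 3` by `pade1`), so it is at most
`3u⁴/(u-1)² - 8u²/(u-1) - 3 - 3u² + 2u`, and multiplying by `(u-1)²`:
`3u⁴ - 8u²(u-1) - (3+3u²-2u)(u-1)² = -2u²+8u-3 ≤ 0` for `u ≥ 18/5`.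
Case `0 < u ≤ 18/5`, `x = u² ≤ 12.96`: by `pade4`, `ρ ≤ (945+105x+x²)/(315+14x) = 3 + w`,
`w = x(63+x)/(315+14x)`, and by `tanh_half_le`, `2 u t ≤ x(60+x)/(6(10+x))`; so the left side is
`≤ 3w²+10w-3x+x(60+x)/(6(10+x))`, and this is `≤ 0`: multiply by `6(10+x)(315+14x)²/x`:
`18(10+x) x (63+x)² + 60(10+x)(63+x)(315+14x) - 18(10+x)(315+14x)² + (60+x)(315+14x)² ≤ 0`
for `0 ≤ x ≤ 13` (constant coefficient is 0; numerically `≤ -0.0022 x` relative scale).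
-/

namespace P322.W

theorem key_rho {u : ℝ} (hu : 0 < u) :
    3 * u ^ 4 * Real.sinh u ^ 2 - 8 * u ^ 2 * Real.sinh u * NN u
      - 3 * NN u ^ 2 * (1 + u ^ 2) + 2 * u * NN u ^ 2 * Real.tanh (u / 2) ≤ 0 := by
  sorry

end P322.W
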