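import Vale.Agent.P322.W.W2a

/-!
`K' ≤ h'`. With `S, C = sinh, cosh u`, `s, c = sinh, cosh (u/2)`, `S = 2 s c`, `C = 2c²-1 = 1+2s²`,
`N' = u S`, `q̃ = u s N + c (u² S - 3 N) > 0` (by `pade1_strict`: `u² S > 3 N`),
`q̃' = N (3 u c - s)/2 + (3/2) u² s S`.
`K' = [(2uN+u³S) 2 c q̃ - u² N (s q̃ + 2 c q̃')]/(4 c² q̃²)`; the claim `K' ≤ -u/(4c²)` is
`(2uN+u³S) 2 c q̃ - u² N (s q̃ + 2 c q̃') + u q̃² ≤ 0`. Since `q̃² = q̃ (u s N + c (u² S - 3N))`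
the left side is `u c [(N + 3u²S) q̃ - 2 u N q̃']` and
`(N+3u²S) q̃ - 2uN q̃' = c (3u⁴S² - 8u²SN + N² (2 u t - 3 - 3u²)) ≤ 0` (`s = t c`) by `key_rho`.
-/

namespace P322.W

theorem qt_pos {u : ℝ} (hu : 0 < u) : 0 < qt u := by
  sorry

theorem KK_pos {u : ℝ} (hu : 0 < u) : 0 < KK u := by
  sorry

theorem KK_deriv {u : ℝ} (hu : 0 < u) :
    ∃ k', HasDerivAt KK k' u ∧ k' ≤ -u / (4 * Real.cosh (u / 2) ^ 2) := by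
  sorry

end P322.W
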