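import Vale.Agent.P322.W.W2b
import Vale.Agent.P322.W.HuBasic

/-!
`h ≤ K`: `hu - KK` is nondecreasing on `(0,∞)` (derivatives: `hasDerivAt_hu`, `KK_deriv`); if
`hu u0 > KK u0` then for all `u ≥ u0`, `hu u ≥ hu u - KK u ≥ hu u0 - KK u0 > 0`, contradicting
`tendsto_hu`.
`ω' ≤ 0`: `omu = 4 h² c² N/u³`,
`ω' = (4 h c/u⁴) (2 h' c u N + h s u N + h c u² S - 3 h c N) = (4 h c/u⁴) (h q̃ - u² N/(2c))
 = (4 h c q̃/u⁴) (h - K) ≤ 0`.
-/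

namespace P322.W

theorem hu_le_KK {u : ℝ} (hu0 : 0 < u) : hu u ≤ KK u := by
  sorry

theorem omu_antitone : AntitoneOn omu (Set.Ioi 0) := by
  sorry

end P322.W
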