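import Vale.Agent.P322.W.Base

/-! # P322-W3: the one-parameter inequality -/

namespace P322

/-- `1 + P(a)`, `P = (B_a - rr a) h(a) · 3/2` -/
noncomputable def PW (a : ℝ) : ℝ := (BB a - rr a) * hh a * (3 / 2)

theorem PW_nonneg {a : ℝ} (ha : a ∈ Set.Ioo (0 : ℝ) 1) : 0 ≤ PW a := by
  sorry

theorem W3 {a θ : ℝ} (ha : a ∈ Set.Ioo (0 : ℝ) 1) (hθ : θ ∈ Set.Ioc (0 : ℝ) 1) :
    min (1 / θ) (hh a / Real.log 2 + θ * a ^ 2 * (5 / 4 - 1 / 4 * (θ ^ 2 * a ^ 2))) ≤ 1 + PW a := by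
  sorry

end P322
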