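import Vale.Agent.P322.W.W5

/-!
# W4: `χ = h ξ ≤ (29/50) tanh² z`, i.e. `hu u * (sinh u - u) ≤ (29/50) u tanh²(u/2)`

Case `u ≤ 5/2` (`W4_small`): by `P_le`, `h (S-u)/u ≤ log 2 (1 - u/S)`, and
`0.6932 (S-u)(C+1) ≤ 0.58 (C-1) S` for `0 ≤ u ≤ 5/2`. With `x = u²`, `C = 1+p`, `S = u(1+r)`:
`0.58 p - 1.3864 r ≥ 0.1132 r p`; `p = x/2+x²/24+x³/720+..`, `r = x/6+x²/120+x³/5040+..`
(Taylor lower bounds with positive coefficients on the left, upper bounds on the right; at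
`u = 5/2`: left 1.0079, right 0.8250).
Case `u ≥ 5/2` (`W4_large`): with `q = e^{-u}`, `(1+q) log(1+q) ≤ q (1+q/2)` :
`h (S-u)/u ≤ (1+u+q/2)(1-q²-2qu)/(2u(1+q))`, so it is enough that
`(1+u+q/2)(1-q²-2qu)(1+q) ≤ 1.16 u (1-q)²`  (`W4_alg`). For `u ≥ 25/4`, `0.16 u ≥ 1` suffices.
For `5/2 ≤ u ≤ 25/4` use the tangent lower bounds `q ≥ e^{-a} (1+a-u)` with `a = 3` on
`[2.5,3.5]`, `a = 4` on `[3.5,4.5]`, `a = 5` on `[4.5,5.5]`, `a = 6` on `[5.5,6.25]`, and that the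
difference (right - left)
`0.16u - 1 + q (2u² - 1.32u - 1.5) + q² (2u²+5u+1.5+..) + ...` is increasing in `q`.
-/

namespace P322.W

/-- Taylor-type inequality -/
theorem W4_alg_small {u : ℝ} (h0 : 0 ≤ u) (h1 : u ≤ 5 / 2) :
    0.6932 * (Real.sinh u - u) * (Real.cosh u + 1) ≤ 0.58 * (Real.cosh u - 1) * Real.sinh u := by
  sorry

theorem W4_small {u : ℝ} (h0 : 0 < u) (h1 : u ≤ 5 / 2) :
    hu u * (Real.sinh u - u) ≤ 29 / 50 * u * Real.tanh (u / 2) ^ 2 := by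
  sorry

theorem W4_alg {u : ℝ} (h1 : 5 / 2 ≤ u) :
    (1 + u + Real.exp (-u) / 2) * (1 - Real.exp (-u) ^ 2 - 2 * Real.exp (-u) * u)
      * (1 + Real.exp (-u)) ≤ 29 / 25 * u * (1 - Real.exp (-u)) ^ 2 := by
  sorry

theorem W4_large {u : ℝ} (h1 : 5 / 2 ≤ u) :
    hu u * (Real.sinh u - u) ≤ 29 / 50 * u * Real.tanh (u / 2) ^ 2 := by
  sorry

theorem chi_le {u : ℝ} (h0 : 0 < u) :
    hu u * (Real.sinh u - u) ≤ 29 / 50 * u * Real.tanh (u / 2) ^ 2 := by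
  rcases le_total u (5 / 2) with h | h
  · exact W4_small h0 h
  · exact W4_large h

end P322.W
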