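import Vale.Agent.P322.W.Pade
import Vale.Agent.P322.W.HuBasic

/-!
# W5: bounds for `E = log cosh (u/2) - log 2 + hu u * sinh u / u` (`u = 2z`)

(a) `P_le`: `hu u * sinh u ≤ u log 2`, i.e. `E ≤ Λ/2`, `Λ = 2 log cosh (u/2)`.
 `f(u) = u log 2/S - h(u)`, `f' = [u (C-1)/2 - log 2 (u C - S)]/S² * ...`: precisely
 `f' = log 2 (S - u C)/S² + u/(4c²)` and `S² = 4 s² c²`, so `4 s² c² f' = u (C-1)/2 - log 2 (uC-S)`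
 (`2 s² = C - 1`). Put `ψ(u) = u (C-1)/(uC-S)`; `ψ` is antitone on `(0,∞)`:
 `ψ' ≤ 0` iff `φ := S C + u C - S - u² S - u ≥ 0`; `φ(0)=0`, `φ' = 2 S² - u S - u² C ≥ 0` because
 `3 u C ≤ S (3+u²)` (`pade1`) and `S ≥ u + u³/6`.
 If `ψ(u0) ≥ 2 log 2` then `f' ≥ 0` on `(0,u0]`, and `f(0+) = 0`; otherwise `f' ≤ 0` on `[u0,∞)`
 and `f(∞) = 0`. (`u/S → 1` at `0`, `→ 0` at `∞`.)
(b) `W5key`: `10 (2S+u) N - 10 u² S² + 11 N² ≥ 0`.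
 `u ≥ 21/5`: `N ≥ (u-1) S`, so it is `≥ S² (20(u-1) + 11(u-1)² - 10u²) = S² (u²-2u-9) ≥ 0`.
 `u ≤ 21/5`, `x = u²`: `N ≥ S n0`, `n0 = x(315+14x)/(945+105x+x²)` (`pade4`);
 `u/S = (u/2)(1/t - t) ≥ σ0 = 6(10+x)/(60+x) - x(60+x)/(24(10+x))` (`tanh_half_le`,
 `S = 2t/(1-t²)`); and `10(2+σ0) n0 + 11 n0² - 10 x ≥ 0` on `[0, 17.64]` (polynomial after
 clearing denominators, divisible by `x³`).
(c) `hu_ge`: `(5/11) u² t ≤ hu u * N`, `t = tanh (u/2)`: `k = (5/11) u² t/N` satisfies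
 `k' = (5/11) ((2uS+u²) N - u³S²)/((1+C) N²) ≥ -u/(2(1+C)) = h'` by (b) (`4c² = 2(1+C)`), and
 `h, k → 0` at infinity (`hu_le_exp`; `N ≥ (u-1) S`), so `h ≥ k`.
(d) `E_ge`: `E(0+) = 0`, `E' = h N/u²`, `(log cosh (u/2))' = t/2`, so
 `(E - (10/11) log cosh (u/2))' ≥ 0`, hence `E ≥ (10/11) log cosh(u/2) = (5/11) Λ`.
-/

namespace P322.W

theorem psi_antitone :
    AntitoneOn (fun u : ℝ => u * (Real.cosh u - 1) / NN u) (Set.Ioi 0) := by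
  sorry

theorem P_le {u : ℝ} (hu0 : 0 < u) : hu u * Real.sinh u ≤ u * Real.log 2 := by
  sorry

theorem W5key {u : ℝ} (hu0 : 0 < u) :
    0 ≤ 10 * (2 * Real.sinh u + u) * NN u - 10 * u ^ 2 * Real.sinh u ^ 2 + 11 * NN u ^ 2 := by
  sorry

theorem hu_ge {u : ℝ} (hu0 : 0 < u) :
    5 / 11 * u ^ 2 * Real.tanh (u / 2) ≤ hu u * NN u := by
  sorry

/-- `E ≥ (5/11) Λ` -/
theorem E_ge {u : ℝ} (hu0 : 0 < u) :
    10 / 11 * Real.log (Real.cosh (u / 2))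
      ≤ Real.log (Real.cosh (u / 2)) - Real.log 2 + hu u * Real.sinh u / u := by
  sorry

/-- `1/2 ≤ h sinh u / u`: with `q = e^{-u}`, `P = (1-q)/2 (1 + (1+q) log(1+q)/(q u))`,
`(1+q) log (1+q) ≥ q`, so `P ≥ (1-q)(1+1/u)/2 ≥ 1/2` since `q (u+1) ≤ 1`. -/
theorem P_ge_half {u : ℝ} (hu0 : 0 < u) : u / 2 ≤ hu u * Real.sinh u := by
  sorry

end P322.W
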